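import Vale.Agent.P011S.Defs2

open Matrix

namespace Vale.Agent.P011.H402

open Vale.Agent.P011S

/-- The element `a` is a sum of hermitian squares. -/
def IsSumSq {D : Type} [DivisionRing D] [StarRing D] (a : D) : Prop :=
  ∃ (n : ℕ) (t : Fin n → D), a = ∑ i, star (t i) * t i

/-- The symmetric element `s` satisfies `-δ ≤ s ≤ δ`: both `δ - s` and `δ + s` are sums of
hermitian squares. -/
def IsSmall {D : Type} [DivisionRing D] [StarRing D] (δ : ℚ) (s : D) : Prop :=
  star s = s ∧ IsSumSq ((δ : D) - s) ∧ IsSumSq ((δ : D) + s)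

/-- The values of the form `H` orthogonally to any two vectors are stable under perturbation:
if `x ≠ 0` is orthogonal to `y` and `z`, then every element close to the value of `H` at `x`
is again the value of `H` at a vector orthogonal to `y` and `z`. -/
def HasStableValues {D : Type} [DivisionRing D] [StarRing D] {m : ℕ}
    (H : Matrix (Fin m) (Fin m) D) : Prop :=
  ∀ y z x : Fin m → D, x ≠ 0 → star y ⬝ᵥ (H *ᵥ x) = 0 → star z ⬝ᵥ (H *ᵥ x) = 0 →
    ∃ δ : ℚ, 0 < δ ∧ ∀ s : D, IsSmall δ s → ∃ x' : Fin m → D,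
      star x' ⬝ᵥ (H *ᵥ x') = star x ⬝ᵥ (H *ᵥ x) + s ∧
        star y ⬝ᵥ (H *ᵥ x') = 0 ∧ star z ⬝ᵥ (H *ᵥ x') = 0

end Vale.Agent.P011.H402
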