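import Vale.Agent.P011.H402.Transfer

/-!
Normal subgroups of the special unitary group of an anisotropic hermitian form with stable
values.
-/

set_option linter.unusedSectionVars false
set_option linter.unusedSimpArgs false

open Matrix Module
open scoped commutatorElement

namespace Vale.Agent.P011.H402

open Vale.Agent.P011S

theorem sos_of_isSumSq {D : Type} [DivisionRing D] [StarRing D] {a : D} (h : IsSumSq a) :
    a ∈ sos D := by
  obtain ⟨n, t, rfl⟩ := h
  exact sum_mem fun i _ => sos_star_mul (t i)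

theorem IsSumSq.of_sos {D : Type} [DivisionRing D] [StarRing D] [CharZero D] [FormPos D]
    [FiniteDimensional ℚ D] {a : D} (h : a ∈ sos D) : IsSumSq a := HSq_of_sos h

section

variable {D : Type} [DivisionRing D] [StarRing D] [FormPos D] [CharZero D]
  [FiniteDimensional ℚ D] {m : ℕ}

/-- In dimension at least three there is a nonzero vector orthogonal to two given ones. -/
theorem exists_orth (H : Matrix (Fin m) (Fin m) D) (hA : An H) (hm : 3 ≤ m) (x y : Fin m → D) :
    ∃ w, w ≠ 0 ∧ (rowForm H hA).h w x = 0 ∧ (rowForm H hA).h w y = 0 := by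
  let F : (Fin m → D) →ₗ[D] (D × D) :=
    { toFun := fun w => ((rowForm H hA).h w x, (rowForm H hA).h w y)
      map_add' := fun a b => by
        ext
        · exact (rowForm H hA).add_left a b x
        · exact (rowForm H hA).add_left a b y
      map_smul' := fun c a => by
        ext
        · exact (rowForm H hA).smul_left c a x
        · exact (rowForm H hA).smul_left c a y }
  have h1 : LinearMap.ker F ≠ ⊥ := by
    apply LinearMap.ker_ne_bot_of_finrank_lt
    rw [Module.finrank_prod, Module.finrank_self, Module.finrank_fin_fun]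
    omega
  obtain ⟨w, hw, hw0⟩ := (Submodule.ne_bot_iff _).mp h1
  have h2 : F w = 0 := hw
  exact ⟨w, hw0, congrArg Prod.fst h2, congrArg Prod.snd h2⟩

/-- the form in terms of columns -/
theorem rowForm_eq (H : Matrix (Fin m) (Fin m) D) (hA : An H) (u v : Fin m → D) :
    (rowForm H hA).h (star u) (star v) = star u ⬝ᵥ (H *ᵥ v) := by
  rw [rowForm_h, gram_entry]
  congr 1
  · ext i
    simp [cv]
  · congr 1
    ext i
    simp [cv]

theorem openV_of_stable (H : Matrix (Fin m) (Fin m) D) (hA : An H) (hm : 3 ≤ m)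
    (hS : HasStableValues H) : (rowForm H hA).OpenV := by
  refine ⟨exists_orth H hA hm, fun x y w hw0 hwx hwy => ?_⟩
  have e : ∀ u v : Fin m → D, (rowForm H hA).h u v = star (star u) ⬝ᵥ (H *ᵥ star v) := by
    intro u v
    rw [← rowForm_eq H hA (star u) (star v), star_star, star_star]
  have hxw := (rowForm H hA).orth_symm hwx
  have hyw := (rowForm H hA).orth_symm hwy
  rw [e] at hxw hyw
  obtain ⟨δ, hδ, hS'⟩ := hS (star x) (star y) (star w) (by
    intro h0
    apply hw0
    rw [← star_star w, h0, star_zero]) hxw hyw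
  refine ⟨δ, hδ, fun s hs h1 h2 => ?_⟩
  obtain ⟨x', hx1, hx2, hx3⟩ := hS' s ⟨hs, by
    rw [← mul_one (δ : D), ← Rat.smul_def]; exact IsSumSq.of_sos h1, by
    rw [← mul_one (δ : D), ← Rat.smul_def]; exact IsSumSq.of_sos h2⟩
  refine ⟨star x', ?_, ?_, ?_⟩
  · apply (rowForm H hA).orth_symm
    rw [e, star_star x']
    exact hx2
  · apply (rowForm H hA).orth_symm
    rw [e, star_star x']
    exact hx3
  · rw [e, e, star_star x']
    exact hx1

end

variable {p : ℕ} {K D F : Type} [Field K] [NumberField K] [StarRing K]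
  [DivisionRing D] [StarRing D] [CharZero D] [Algebra K D] [StarModule K D]
  [FiniteDimensional K D] [Algebra.IsCentral K D] [Field F] [Algebra K F]

/-- Normal subgroups of the special unitary group of an anisotropic form with stable values. -/
theorem normal_stable (hK : ∃ k : K, star k ≠ k) (hpos : IsFormallyPositive D)
    (hdeg : finrank K D = p ^ 2)
    (f : D →ₐ[K] Matrix (Fin p) (Fin p) F) {m : ℕ} (H : Matrix (Fin m) (Fin m) D)
    (hH : IsAnisotropicForm H) (hm : 3 ≤ m) (hU : IsUniversal H 2) (hS : HasStableValues H)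
    (N : Subgroup (SU f H)) [hN : N.Normal] :
    N ≤ Subgroup.center (SU f H) ∨
      (ContainsCommutators f H N ∧ IsQuotientOfSUK f (SU f H ⧸ N) ∧
        (Squarefree p → N = ⊤)) := by
  have : FiniteDimensional ℚ D := FiniteDimensional.trans ℚ K D
  have : FormPos D := hpos.formPos
  have hA : An H := hH.an
  have hR : Room H 2 := room_of_explicit hU
  obtain ⟨N0, ⟨ρ⟩⟩ := exists_iota (D := D)
  obtain ⟨θ, hθ0, hθ, hθs⟩ : ∃ θ : D, θ ≠ 0 ∧ (∀ x, x * θ = θ * x) ∧ star θ = -θ := by
    obtain ⟨k, hk⟩ := hK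
    refine ⟨algebraMap K D (k - star k), ?_, ?_, ?_⟩
    · rw [Ne, map_eq_zero]
      exact sub_ne_zero.mpr (Ne.symm hk)
    · intro x
      exact (Algebra.commutes _ x).symm
    · rw [← algebraMap_star_comm, star_sub, star_star, ← map_neg, neg_sub]
  obtain ⟨c, c', hc⟩ := exists_good (K := K) (D := D) hK
  obtain ⟨G⟩ := exists_globF ρ hA hR (by norm_num) hc hθ hθs hθ0
  have hgen : Subgroup.closure (qrPosSet H hA.herm) = ⊤ :=
    closure_qrPos hA hR le_rfl ρ hθs hθ0 hθ
  have hO := openV_of_stable H hA hm hS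
  rcases normal_any_of hK ρ f H hH hR (by
    rintro N' hN' σ hσ ⟨x, hx⟩
    exact partI_open hA hO ρ G hgen hθs hθ0 hθ hN' hσ hx) N with h | ⟨h1, h2⟩
  · exact Or.inl h
  · refine Or.inr ⟨h1, h2, fun hp => ?_⟩
    refine eq_top_of_kill' f hA hR (by norm_num) G hθ0 hθ hθs N ?_ ?_
    · rw [commutator_def, Subgroup.commutator_le]
      intro a _ b _
      obtain ⟨n, hn, hn'⟩ := h1 a a.2 b b.2
      exact ⟨n, hn, Subtype.ext hn'⟩
    · intro Z hZ0 hZ
      exact suk_sqfree (K := K) G.F G.mul G.sym hp hdeg hK f hZ0 hZ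

/-- The combined statement. -/
theorem normal_all (hK : ∃ k : K, star k ≠ k) (hpos : IsFormallyPositive D)
    (hdeg : finrank K D = p ^ 2)
    (f : D →ₐ[K] Matrix (Fin p) (Fin p) F) {m : ℕ} (H : Matrix (Fin m) (Fin m) D)
    (hH : IsAnisotropicForm H)
    (hM : HasOrthonormal H (12 * Module.finrank ℚ D) ∨ IsTwoUniversal H ∨
      (3 ≤ m ∧ IsUniversal H 2 ∧ HasStableValues H))
    (N : Subgroup (SU f H)) [hN : N.Normal] :
    N ≤ Subgroup.center (SU f H) ∨
      (ContainsCommutators f H N ∧ IsQuotientOfSUK f (SU f H ⧸ N) ∧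
        (Squarefree p → N = ⊤)) := by
  rcases hM with h | h | ⟨hm, hU, hS⟩
  · exact normal_anis_sqfree hK hpos hdeg f H hH (Or.inl h) N
  · exact normal_anis_sqfree hK hpos hdeg f H hH (Or.inr h) N
  · exact normal_stable hK hpos hdeg f H hH hm hU hS N

end Vale.Agent.P011.H402
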