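import Vale.Agent.P011.H402.Total

/-!
Normal subgroups of the isometry groups of anisotropic hermitian spaces with stable values.
-/

set_option linter.unusedSectionVars false

namespace Vale.Agent.P011S

open Module
open scoped commutatorElement

variable {D V : Type} [DivisionRing D] [StarRing D] [CharZero D] [AddCommGroup V] [Module D V]

namespace AForm

variable {H : AForm D V}

/-- Orthogonal vectors have the same coefficient. -/
theorem cf_orth_any {σ : V ≃ₗ[D] V} (hσ : σ ∈ H.isom)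
    (hq : ∀ x, ∃ l : D, σ (σ x) = (2 * H.cf σ x) • σ x + l • x)
    {a v : V} (hmov : ∀ d : D, σ a ≠ d • a)
    (hva : H.h v a = 0) (hvs : H.h v (σ a) = 0) :
    H.h (σ v) v = H.cf σ a * H.h v v ∧ H.h (σ v) a = 0 ∧ H.h (σ v) (σ a) = 0 := by
  have ha0 : a ≠ 0 := fun h => hmov 0 (by simp only [h, map_zero, smul_zero])
  obtain ⟨l, hl⟩ := hq a
  have hl0 : l ≠ 0 := by
    rintro rfl
    rw [zero_smul, add_zero, ← map_smul] at hl
    exact hmov _ (σ.injective hl)
  have e1 : H.h (σ v) (σ a) = 0 := by rw [H.isom_apply hσ, hva]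
  have e2 : H.h (σ v) a = 0 := by
    have h1 : l • a = σ (σ a) - (2 * H.cf σ a) • σ a := by rw [hl]; abel
    have h2 : H.h (σ v) (l • a) = 0 := by
      rw [h1, H.sub_right, H.smul_right, e1, zero_mul, sub_zero, H.isom_apply hσ, hvs]
    rw [H.smul_right] at h2
    exact (mul_eq_zero.mp h2).resolve_right (star_ne_zero.mpr hl0)
  refine ⟨?_, e2, e1⟩
  have e3 : H.h (σ a) v = 0 := H.orth_symm hvs
  have e4 : H.h a v = 0 := H.orth_symm hva
  have e5 : H.h a (σ v) = 0 := H.orth_symm e2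
  have e6 : H.h (σ a) (σ v) = 0 := H.orth_symm e1
  have hav : H.h (a + v) (a + v) = H.h a a + H.h v v := by
    rw [H.add_left, H.add_right, H.add_right, e4, hva]; abel
  have hav0 : a + v ≠ 0 := by
    intro h0
    have : H.h (a + v) a = 0 := by rw [h0]; simp
    rw [H.add_left, hva, add_zero] at this
    exact ha0 (H.anis this)
  obtain ⟨l', hl'⟩ := hq (a + v)
  obtain ⟨lv, hlv⟩ := hq v
  set c' := H.cf σ (a + v) with hc'
  rw [map_add, map_add, hl, hlv] at hl'
  have h1 : (2 * H.cf σ a - 2 * c') • σ a + (l - l') • a =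
      (2 * c' - 2 * H.cf σ v) • σ v + (l' - lv) • v := by
    have h2 : (2 * H.cf σ a) • σ a + l • a + ((2 * H.cf σ v) • σ v + lv • v) -
        ((2 * c') • σ a + l' • a) - ((2 * H.cf σ v) • σ v + lv • v) =
        (2 * c') • (σ a + σ v) + l' • (a + v) -
        ((2 * c') • σ a + l' • a) - ((2 * H.cf σ v) • σ v + lv • v) := by rw [hl']
    rw [sub_smul, sub_smul, sub_smul, sub_smul]
    rw [smul_add, smul_add] at h2
    calc _ = (2 * H.cf σ a) • σ a + l • a + ((2 * H.cf σ v) • σ v + lv • v) -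
        ((2 * c') • σ a + l' • a) - ((2 * H.cf σ v) • σ v + lv • v) := by abel
      _ = _ := by rw [h2]; abel
  have h3 : (2 * H.cf σ a - 2 * c') • σ a + (l - l') • a = 0 := by
    apply H.anis
    nth_rewrite 2 [h1]
    simp only [H.add_left, H.add_right, H.smul_left, H.smul_right, e3, e4, e5, e6]
    simp only [star_sub, star_mul, star_ofNat, zero_mul, mul_zero, add_zero]
  have h4 : H.cf σ a = c' := by
    by_contra hne
    have h5 : 2 * H.cf σ a - 2 * c' ≠ 0 := by
      rw [← mul_sub]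
      exact mul_ne_zero two_ne_zero (sub_ne_zero.mpr hne)
    apply hmov (-((2 * H.cf σ a - 2 * c')⁻¹ * (l - l')))
    have h6 := congrArg (fun u => (2 * H.cf σ a - 2 * c')⁻¹ • u) h3
    simp only [smul_add, smul_smul, inv_mul_cancel₀ h5, one_smul, smul_zero] at h6
    rw [neg_smul]
    exact eq_neg_of_add_eq_zero_left h6
  have h7 := H.cf_mul σ hav0
  rw [← hc', ← h4, hav, map_add, H.add_left, H.add_right, H.add_right, e3, e2, mul_add,
    H.cf_mul σ ha0] at h7
  have h8 : H.h (σ a) a + H.cf σ a * H.h v v = H.h (σ a) a + H.h (σ v) v := by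
    rw [h7]; abel
  exact (add_left_cancel h8).symm

/-- From an element moving a line to a product of two reflections. -/
theorem start_any (hnz : ∀ x y : V, ∃ w, w ≠ 0 ∧ H.h w x = 0 ∧ H.h w y = 0)
    {θ : D} (hθ : star θ = -θ) (hθ0 : θ ≠ 0)
    (hθc : ∀ x, x * θ = θ * x) {N : Subgroup (V ≃ₗ[D] V)} (hN : CommNormal H N)
    (hNU : N ≤ H.isom) {σ : V ≃ₗ[D] V} (hσ : σ ∈ N) {a : V}
    (ha : ∀ c : D, σ a ≠ c • a) :
    ∃ z z' : V, H.h z z = H.h z' z' ∧ (∀ c : D, z ≠ c • z') ∧
      H.refl z' * H.refl z ∈ N := by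
  by_contra hcon
  push Not at hcon
  have hσ' := hNU hσ
  have hq : ∀ x, ∃ l : D, σ (σ x) = (2 * H.cf σ x) • σ x + l • x := by
    intro x
    apply quad_of hσ'
    by_contra hne
    push Not at hne
    exact hcon (H.wv σ x) x (H.wv_norm hσ' x) hne
      (refl_wv_mem hN hNU hσ x)
  have ha0 : a ≠ 0 := fun h => ha 0 (by simp [h])
  obtain ⟨v, hv0, hv1, hv2⟩ := hnz a (σ a)
  obtain ⟨e, he⟩ : ∃ e, e = H.h v v := ⟨_, rfl⟩
  have he0 : e ≠ 0 := he ▸ H.self_ne_zero hv0
  obtain ⟨c, hc⟩ : ∃ c, c = H.cf σ a := ⟨_, rfl⟩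
  obtain ⟨hv4, hv5, hv6⟩ := cf_orth_any hσ' hq ha hv1 hv2
  rw [← hc, ← he] at hv4
  have hcA : H.h (σ a) a = c * H.h a a := by rw [hc, H.cf_mul σ ha0]
  -- the coefficient is central
  have hcc : ∀ μ : D, μ * c = c * μ := by
    intro μ
    by_cases hμ : μ = 0
    · simp [hμ]
    have h1 : H.h (μ • v) (μ • v) = μ * e * star μ := by
      rw [H.smul_left, H.smul_right, ← he, mul_assoc]
    obtain ⟨h2, -, -⟩ := cf_orth_any hσ' hq (v := μ • v) ha
      (by rw [H.smul_left, hv1, mul_zero]) (by rw [H.smul_left, hv2, mul_zero])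
    rw [h1, map_smul, H.smul_left, H.smul_right, hv4, ← hc] at h2
    have h3 : (μ * c) * e * star μ = (c * μ) * e * star μ := by
      simp only [mul_assoc] at h2 ⊢
      exact h2
    exact mul_right_cancel₀ he0 (mul_right_cancel₀ (star_ne_zero.mpr hμ) h3)
  obtain ⟨A, hA⟩ : ∃ A, A = H.h a a := ⟨_, rfl⟩
  have hAs : star A = A := by rw [hA, H.star_h]
  rw [← hA] at hcA
  have hcA' : H.h a (σ a) = A * star c := by
    rw [← H.star_h, hcA, star_mul, hAs]
  obtain ⟨a1, ha1⟩ : ∃ a1, a1 = σ a - c • a := ⟨_, rfl⟩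
  have ha10 : a1 ≠ 0 := by
    rw [ha1]; exact sub_ne_zero.mpr (ha c)
  -- `v` is moved
  have hvm : ∀ d : D, σ v ≠ d • v := by
    intro d hd
    rw [hd, H.smul_left, ← he] at hv4
    have hdc : d = c := mul_right_cancel₀ he0 hv4
    have h1 : c * star c = 1 := by
      have h2 := H.isom_apply hσ' v v
      rw [hd, hdc, H.smul_left, H.smul_right, ← he, ← mul_assoc, ← hcc e, mul_assoc] at h2
      exact mul_left_cancel₀ he0 (by rw [h2, mul_one])
    apply ha10
    apply H.anis
    rw [ha1]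
    simp only [H.sub_left, H.sub_right, H.smul_left, H.smul_right]
    rw [H.isom_apply hσ', hcA, hcA', ← hA]
    have h3 : c * A * star c = A := by
      rw [← hcc, mul_assoc, h1, mul_one]
    rw [← mul_assoc, h3]
    abel
  have hv7 : H.cf σ v = c := by
    unfold cf; rw [hv4, ← he, mul_inv_cancel_right₀ he0]
  -- vectors orthogonal to `v` and `σ v`
  have key : ∀ y, H.h y v = 0 → H.h y (σ v) = 0 → H.h (σ y - c • y) y = 0 := by
    intro y hyv hyv'
    obtain ⟨h1, -, -⟩ := cf_orth_any hσ' hq hvm hyv hyv'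
    rw [hv7] at h1
    rw [H.sub_left, H.smul_left, h1, sub_self]
  have ha1v : H.h a1 v = 0 := by
    rw [ha1, H.sub_left, H.smul_left, H.orth_symm hv2, H.orth_symm hv1, mul_zero, sub_zero]
  have ha1v' : H.h a1 (σ v) = 0 := by
    rw [ha1, H.sub_left, H.smul_left, H.orth_symm hv6, H.orth_symm hv5, mul_zero, sub_zero]
  have ha1a : H.h a1 a = 0 := by
    rw [ha1, H.sub_left, H.smul_left, hcA, ← hA, sub_self]
  have haa1 : H.h a a1 = 0 := H.orth_symm ha1a
  obtain ⟨B, hB⟩ : ∃ B, B = H.h (σ a1 - c • a1) a := ⟨_, rfl⟩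
  obtain ⟨C, hC⟩ : ∃ C, C = H.h (σ a1 - c • a1) a1 := ⟨_, rfl⟩
  obtain ⟨E, hE⟩ : ∃ E, E = H.h a1 a1 := ⟨_, rfl⟩
  have hcom : ∀ (q : ℚ) (z : D), z * (q : D) = (q : D) * z := fun q z =>
    (Rat.cast_commute q z).eq.symm
  -- polarization
  have pol : ∀ μ : D, E * star μ + μ * B = 0 := by
    intro μ
    have step : ∀ t : ℚ,
        (t : D) * (E * star μ + μ * B) + μ * C * star μ = 0 := by
      intro t
      have h1 := key ((t : D) • a + μ • a1) (by
        rw [H.add_left, H.smul_left, H.smul_left, H.orth_symm hv1, ha1v]; simp) (by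
        rw [H.add_left, H.smul_left, H.smul_left, H.orth_symm hv5, ha1v']; simp)
      have e2 : σ ((t : D) • a + μ • a1) - c • ((t : D) • a + μ • a1) =
          (t : D) • a1 + μ • (σ a1 - c • a1) := by
        have e3 : (t : D) • a1 = (t : D) • σ a - (c * (t : D)) • a := by
          rw [hcom, ← smul_smul, ← smul_sub, ← ha1]
        rw [e3, map_add, map_smul, map_smul, smul_add, smul_smul, smul_smul, smul_sub, smul_smul,
          hcc μ]
        abel
      rw [e2] at h1
      simp only [H.add_left, H.add_right, H.smul_left (t : D), H.smul_left μ, H.smul_right] at h1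
      rw [ha1a, ← hE, ← hB, ← hC, star_ratCast, hcom] at h1
      rw [← h1, mul_add]
      simp only [mul_zero, zero_mul, zero_add, mul_assoc]
      have e5 : μ * (B * (t : D)) = (t : D) * (μ * B) := by
        rw [hcom t B, ← mul_assoc, hcom t μ, mul_assoc]
      rw [e5]
      abel
    have s1 := step 1
    have s2 := step 2
    rw [Rat.cast_one, one_mul] at s1
    rw [Rat.cast_ofNat, two_mul] at s2
    calc E * star μ + μ * B = (E * star μ + μ * B) + (E * star μ + μ * B) +
        μ * C * star μ - ((E * star μ + μ * B) + μ * C * star μ) := by abel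
      _ = 0 := by rw [s1, s2, sub_zero]
  have p1 := pol 1
  have p2 := pol θ
  rw [star_one, mul_one, one_mul] at p1
  rw [hθ, ← hθc, mul_neg, neg_add_eq_zero] at p2
  have p3 : E = B := mul_right_cancel₀ hθ0 p2
  rw [← p3, ← two_mul] at p1
  have p4 : E = 0 := (mul_eq_zero.mp p1).resolve_left two_ne_zero
  exact ha10 (H.anis (hE ▸ p4))

/-- Rotation of a vector towards an orthogonal one. -/
theorem exists_mix {x u : V} (hx : x ≠ 0) (hu : u ≠ 0) (hxu : H.h x u = 0) :
    ∃ α β : D, α ≠ 0 ∧ β ≠ 0 ∧ H.h (α • x + β • u) (α • x + β • u) = H.h x x := by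
  have key : ∀ w : V, H.h x w = 0 → H.h x x + H.h w w ≠ 0 → H.h w w ≠ H.h x x →
      ∃ α β : D, α ≠ 0 ∧ β ≠ 0 ∧ H.h (α • x + β • w) (α • x + β • w) = H.h x x := by
    intro w hxw hne hne'
    have hxx := H.self_ne_zero hx
    have hsum : H.h (x + w) (x + w) = H.h x x + H.h w w := by
      rw [H.add_left, H.add_right, H.add_right, hxw, H.orth_symm hxw]; abel
    have hxs : H.h x (x + w) = H.h x x := by rw [H.add_right, hxw, add_zero]
    obtain ⟨t, ht⟩ : ∃ t, t = H.h x x * ((H.h x x + H.h w w) / 2)⁻¹ := ⟨_, rfl⟩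
    have ht0 : t ≠ 0 := by
      rw [ht]
      exact mul_ne_zero hxx (inv_ne_zero (div_ne_zero hne two_ne_zero))
    have hr : H.refl (x + w) x = (1 - t) • x + (-t) • w := by
      rw [H.refl_apply, hxs, hsum, ← ht, sub_smul, one_smul, smul_add, neg_smul]
      abel
    refine ⟨1 - t, -t, ?_, neg_ne_zero.mpr ht0, ?_⟩
    · intro h1
      apply hne'
      have h2 : t = 1 := (sub_eq_zero.mp h1).symm
      have h3 : t * ((H.h x x + H.h w w) / 2) = H.h x x := by
        rw [ht, inv_mul_cancel_right₀ (div_ne_zero hne two_ne_zero)]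
      rw [h2, one_mul, div_eq_iff two_ne_zero, mul_two] at h3
      exact add_left_cancel h3
    · rw [← hr, H.isom_apply (H.refl_mem _)]
  have hsum : ∀ w : V, H.h x w = 0 → w ≠ 0 → H.h x x + H.h w w ≠ 0 := by
    intro w hw hw0 h0
    have h1 : H.h (x + w) (x + w) = 0 := by
      rw [H.add_left, H.add_right, H.add_right, hw, H.orth_symm hw, add_zero, zero_add, h0]
    have h2 : H.h (x + w) x = 0 := by rw [H.anis h1, H.zero_left]
    rw [H.add_left, H.orth_symm hw, add_zero] at h2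
    exact H.self_ne_zero hx h2
  by_cases h : H.h u u = H.h x x
  · have h2 : H.h x ((2 : D) • u) = 0 := by rw [H.smul_right, hxu, zero_mul]
    obtain ⟨α, β, hα, hβ, hn⟩ := key ((2 : D) • u) h2
      (hsum _ h2 (smul_ne_zero two_ne_zero hu)) (by
        rw [H.smul_left, H.smul_right, star_ofNat, h]
        intro h3
        have hc : H.h x x * 2 = 2 * H.h x x := (Nat.cast_commute 2 (H.h x x)).eq.symm
        rw [hc, ← mul_assoc] at h3
        have h4 : ((2 : D) * 2 - 1) * H.h x x = 0 := by rw [sub_mul, one_mul, h3, sub_self]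
        rcases mul_eq_zero.mp h4 with h5 | h5
        · norm_num at h5
        · exact H.self_ne_zero hx h5)
    refine ⟨α, β * 2, hα, mul_ne_zero hβ two_ne_zero, ?_⟩
    rwa [smul_smul] at hn
  · exact key u hxu (hsum u hxu hu) h

/-- A product of two reflections in independent vectors of the same norm moves some line
spanned by a vector of any given norm. -/
theorem exists_moved (hnz : ∀ x y : V, ∃ w, w ≠ 0 ∧ H.h w x = 0 ∧ H.h w y = 0)
    {z z' : V} (hz : H.h z z = H.h z' z') (hind : ∀ c : D, z ≠ c • z') {x₀ : V}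
    (hx₀ : x₀ ≠ 0) :
    ∃ x, H.h x x = H.h x₀ x₀ ∧ ∀ c : D, (H.refl z' * H.refl z) x ≠ c • x := by
  obtain ⟨w, hw0, hwz, hwz'⟩ := hnz z z'
  have hz0 : z ≠ 0 := fun h => hind 0 (by rw [h, zero_smul])
  -- vectors orthogonal to the plane are fixed
  have hfix : ∀ v, H.h v z = 0 → H.h v z' = 0 → (H.refl z' * H.refl z) v = v := by
    intro v h1 h2
    rw [LinearEquiv.mul_apply, H.refl_apply_orth h1, H.refl_apply_orth h2]
  -- fixed vectors are orthogonal to `z`
  have hfixz : ∀ v, (H.refl z' * H.refl z) v = v → H.h v z = 0 := by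
    intro v hv
    have h1 : H.refl z v = H.refl z' v := by
      have h2 := congrArg (H.refl z') hv
      rw [LinearEquiv.mul_apply, ← LinearEquiv.mul_apply, H.refl_mul_self] at h2
      exact h2
    rw [H.refl_apply, H.refl_apply, sub_right_inj] at h1
    by_contra hne
    have hk : H.h v z * (H.h z z / 2)⁻¹ ≠ 0 :=
      mul_ne_zero hne (inv_ne_zero (div_ne_zero (H.self_ne_zero hz0) two_ne_zero))
    apply hind ((H.h v z * (H.h z z / 2)⁻¹)⁻¹ * (H.h v z' * (H.h z' z' / 2)⁻¹))
    rw [← smul_smul, ← h1, smul_smul, inv_mul_cancel₀ hk, one_smul]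
  by_contra hcon
  push Not at hcon
  -- every vector of the given norm not orthogonal to `w` is fixed
  have hA : ∀ x, H.h x x = H.h x₀ x₀ → H.h x w ≠ 0 → H.h x z = 0 := by
    intro x hx hxw
    obtain ⟨c, hc⟩ := hcon x hx
    have h1 : H.h ((H.refl z' * H.refl z) x) w = H.h x w := by
      have h2 := H.isom_apply (mul_mem (H.refl_mem z') (H.refl_mem z)) x w
      rwa [hfix w hwz hwz'] at h2
    rw [hc, H.smul_left] at h1
    have h3 : c = 1 := mul_right_cancel₀ hxw (by rw [h1, one_mul])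
    rw [h3, one_smul] at hc
    exact hfixz x hc
  have hzw : H.h z w = 0 := H.orth_symm hwz
  by_cases h1 : H.h x₀ w = 0
  · obtain ⟨α, β, hα, hβ, hn⟩ := exists_mix hx₀ hw0 h1
    have h2 := hA _ hn (by
      rw [H.add_left, H.smul_left, H.smul_left, h1, mul_zero, zero_add]
      exact mul_ne_zero hβ (H.self_ne_zero hw0))
    rw [H.add_left, H.smul_left, H.smul_left, hwz, mul_zero, add_zero] at h2
    have h3 : H.h x₀ z = 0 := (mul_eq_zero.mp h2).resolve_left hα
    -- now rotate towards `z + w`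
    have h4 : H.h x₀ (z + w) = 0 := by rw [H.add_right, h3, h1, add_zero]
    have hzw0 : z + w ≠ 0 := by
      intro h0
      have : H.h (z + w) w = 0 := by rw [h0, H.zero_left]
      rw [H.add_left, hzw, zero_add] at this
      exact H.self_ne_zero hw0 this
    obtain ⟨α', β', hα', hβ', hn'⟩ := exists_mix hx₀ hzw0 h4
    have h5 := hA _ hn' (by
      rw [H.add_left, H.smul_left, H.smul_left, H.add_left, h1, hzw, mul_zero, zero_add, zero_add]
      exact mul_ne_zero hβ' (H.self_ne_zero hw0))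
    rw [H.add_left, H.smul_left, H.smul_left, H.add_left, h3, hwz, mul_zero, zero_add,
      add_zero] at h5
    rcases mul_eq_zero.mp h5 with h6 | h6
    · exact hβ' h6
    · exact H.self_ne_zero hz0 h6
  · have h2 := hA x₀ rfl h1
    obtain ⟨α, β, hα, hβ, hn⟩ := exists_mix hx₀ hz0 h2
    have h3 := hA _ hn (by
      rw [H.add_left, H.smul_left, H.smul_left, hzw, mul_zero, add_zero]
      exact mul_ne_zero hα h1)
    rw [H.add_left, H.smul_left, H.smul_left, h2, mul_zero, zero_add] at h3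
    rcases mul_eq_zero.mp h3 with h4 | h4
    · exact hβ h4
    · exact H.self_ne_zero hz0 h4

variable [FormPos D] [FiniteDimensional ℚ D]

/-- Main theorem of the new Part I (abstract form). -/
theorem OpenV.main (hO : H.OpenV) (hgen : H.isom ≤ H.posQrGp)
    (htr : ∀ g ∈ H.isom, ∀ x y : V, ∃ e ∈ ⁅H.isom, H.isom⁆, e x = g x ∧ e y = g y)
    {θ : D} (hθ : star θ = -θ) (hθ0 : θ ≠ 0) (hθc : ∀ x, x * θ = θ * x)
    {N : Subgroup (V ≃ₗ[D] V)} (hN : CommNormal H N) (hNU : N ≤ H.isom) {σ : V ≃ₗ[D] V}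
    (hσ : σ ∈ N) {x : V} (hx : ∀ c : D, σ x ≠ c • x) : ⁅H.isom, H.isom⁆ ≤ N := by
  obtain ⟨z, z', hzz, hind, hzN⟩ := start_any hO.nz hθ hθ0 hθc hN hNU hσ hx
  have hz0 : z ≠ 0 := fun h => hind 0 (by rw [h, zero_smul])
  obtain ⟨A, hA⟩ : ∃ A, A = H.h z z := ⟨_, rfl⟩
  -- the group generated by products of two reflections of norm `A` is in `N`
  have hR1 : H.InvRel (fun x y => H.refl x * H.refl y ∈ N) := by
    refine ⟨fun {x y} h => rel_symm x y h, fun {x y z} h h' => rel_trans x y z h h', ?_⟩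
    intro x y g hg h
    obtain ⟨e, he, hex, hey⟩ := htr g hg x y
    have h1 := hN e he _ h
    rwa [conj_refl_prod (H.comm_le_isom he), hex, hey] at h1
  have hA1 : ∀ x y, H.h x x = A → H.h y y = A → H.refl x * H.refl y ∈ N := by
    intro x y hx hy
    exact hR1.total hO hgen hθ hθ0 hθc (rel_symm z' z hzN) hzz hind (by rw [hx, hA])
      (by rw [hy, hA])
  have hTN : H.typeGp A ≤ N := by
    rw [typeGp, Subgroup.closure_le]
    rintro g ⟨x, y, hx, hy, rfl⟩
    exact hA1 x y hx hy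
  refine le_trans ?_ hTN
  -- transitivity
  have htrans : ∀ x₀ x₁ : V, H.h x₀ x₀ = H.h x₁ x₁ → ∃ g ∈ H.typeGp A, g x₀ = x₁ := by
    intro x₀ x₁ h01
    by_cases hx₀ : x₀ = 0
    · refine ⟨1, one_mem _, ?_⟩
      rw [hx₀, H.zero_left] at h01
      rw [hx₀, H.anis h01.symm]; simp
    have hR2 : H.InvRel (fun x y => ∃ g ∈ H.typeGp A, g x = y) := by
      refine ⟨?_, ?_, ?_⟩
      · rintro x y ⟨g, hg, rfl⟩
        exact ⟨g⁻¹, inv_mem hg, by rw [← LinearEquiv.mul_apply, inv_mul_cancel]; rfl⟩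
      · rintro x y z ⟨g, hg, rfl⟩ ⟨k, hk, rfl⟩
        exact ⟨k * g, mul_mem hk hg, rfl⟩
      · rintro x y g hg ⟨k, hk, rfl⟩
        refine ⟨g * k * g⁻¹, typeGp_conj hg hk, ?_⟩
        rw [LinearEquiv.mul_apply, LinearEquiv.mul_apply, ← LinearEquiv.mul_apply g⁻¹ g,
          inv_mul_cancel]
        rfl
    obtain ⟨y, hy, hym⟩ := exists_moved hO.nz hzz hind hx₀
    have hmem : H.refl z' * H.refl z ∈ H.typeGp A := mem_typeGp (by rw [← hzz, hA]) hA.symm
    refine hR2.total (x := (H.refl z' * H.refl z) y) (y := y) hO hgen hθ hθ0 hθc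
      (hR2.symm ⟨_, hmem, rfl⟩) (H.isom_apply (typeGp_le hmem) y y) hym ?_ ?_
    · rw [H.isom_apply (typeGp_le hmem), hy]
    · rw [H.isom_apply (typeGp_le hmem), hy, h01]
  -- commutators
  rw [Subgroup.commutator_le]
  intro g hg ρ hρ
  have hρ' := hgen hρ
  clear hρ
  induction hρ' using Subgroup.closure_induction with
  | mem x hx =>
    obtain ⟨y, s, hs, hys, rfl⟩ := hx
    obtain ⟨e, he, hey⟩ := htrans y (g y) (H.isom_apply hg y y).symm
    have he' := typeGp_le he
    have h1 : g * H.qr y s hs * g⁻¹ = e * H.qr y s hs * e⁻¹ := by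
      rw [H.qr_conj hg y s hs (by rw [H.isom_apply hg, hs]),
        H.qr_conj he' y s hs (by rw [H.isom_apply he', hs])]
      congr 1
      exact hey.symm
    rw [commutatorElement_def, h1]
    have h2 : e * H.qr y s hs * e⁻¹ * (H.qr y s hs)⁻¹
        = e * (H.qr y s hs * e⁻¹ * (H.qr y s hs)⁻¹) := by group
    rw [h2]
    exact mul_mem he (typeGp_conj (H.qr_mem y s hs) (inv_mem he))
  | one => rw [commutatorElement_one_right]; exact one_mem _
  | mul x y hx hy h1 h2 =>
    have : ⁅g, x * y⁆ = ⁅g, x⁆ * (x * ⁅g, y⁆ * x⁻¹) := by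
      simp only [commutatorElement_def]; group
    rw [this]
    exact mul_mem h1 (typeGp_conj (H.posQrGp_le hx) h2)
  | inv x hx h1 =>
    have : ⁅g, x⁻¹⁆ = x⁻¹ * (⁅g, x⁆)⁻¹ * (x⁻¹)⁻¹ := by
      simp only [commutatorElement_def]; group
    rw [this]
    exact typeGp_conj (inv_mem (H.posQrGp_le hx)) (inv_mem h1)

end AForm

end Vale.Agent.P011S
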