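import Vale.Agent.P011.Bdl.B2

/-!
Invariant equivalence relations on the vectors of a given norm of an anisotropic hermitian space
whose values, orthogonally to any two vectors, are stable under small perturbations: such a
relation is total as soon as it is nontrivial.
-/

set_option linter.unusedSectionVars false

namespace Vale.Agent.P011S

open Module
open scoped commutatorElement

variable {D : Type} [DivisionRing D] [StarRing D] [CharZero D]

/-- products of bounded elements are bounded -/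
theorem Up.mul_h {N M : ℚ} {a b : D} (hN : 0 ≤ N) (ha : Up N a) (hb : Up M b) :
    Up (N * M) (a * b) := by
  have h1 := sos_conj' ha b
  have h2 := sos_smul hb hN
  have h3 := (sos D).add_mem h1 h2
  unfold Up
  convert h3 using 1
  have e1 : star b * (N • (1 : D) - star a * a) * b = N • (star b * b) -
      star (a * b) * (a * b) := by
    rw [star_mul, mul_sub, sub_mul, mul_smul_comm, mul_one, smul_mul_assoc]
    simp only [mul_assoc]
  rw [e1]
  module

theorem Up.zero_h {N : ℚ} (hN : 0 ≤ N) : Up N (0 : D) := by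
  unfold Up
  rw [mul_zero, sub_zero]
  exact sos_smul sos_one hN

section small

variable [FormPos D] [FiniteDimensional ℚ D]

theorem exists_bdd {k : D} (hk : star k = k) : ∃ q : ℚ, 0 < q ∧ q • (1 : D) - k ∈ sos D := by
  obtain ⟨q, hq, h⟩ := arch hk sos_one (one_ne_zero (α := D))
  exact ⟨q, hq, by rwa [Rat.smul_def]⟩

theorem small_side {m k : D} {M q δ₀ τ δ : ℚ} (hm : Up M m) (hq : q • (1 : D) - k ∈ sos D)
    (hτ : 0 < τ) (hq0 : 0 ≤ q) (hle : τ * M + (τ⁻¹ + q) * δ ≤ δ₀) {κ : D}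
    (hκ : Up δ (star κ)) :
    δ₀ • (1 : D) - (κ * m + star m * star κ + κ * k * star κ) ∈ sos D := by
  have h1 := sos_smul (sos_mul_star (κ - τ • star m)) (inv_nonneg.mpr hτ.le)
  have h2 := sos_smul hm hτ.le
  have h3 := sos_conj hq κ
  have h4 := sos_smul hκ (q := τ⁻¹ + q) (by positivity)
  have h5 := sos_smul (sos_one (D := D)) (q := δ₀ - (τ * M + (τ⁻¹ + q) * δ)) (by linarith)
  have h6 := (sos D).add_mem ((sos D).add_mem ((sos D).add_mem ((sos D).add_mem h1 h2) h3) h4) h5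
  convert h6 using 1
  have hττ : τ⁻¹ * τ = 1 := inv_mul_cancel₀ hτ.ne'
  have e1 : τ⁻¹ • ((κ - τ • star m) * star (κ - τ • star m)) =
      τ⁻¹ • (κ * star κ) - (κ * m + star m * star κ) + τ • (star m * m) := by
    rw [star_sub, star_smul_rat, star_star, sub_mul, mul_sub, mul_sub, smul_mul_assoc,
      smul_mul_assoc, mul_smul_comm, mul_smul_comm, smul_sub, smul_sub, smul_sub, smul_smul,
      smul_smul, hττ, one_smul, one_smul, smul_smul τ⁻¹ τ, hττ, one_smul]
    abel
  have e2 : κ * (q • (1 : D) - k) * star κ = q • (κ * star κ) - κ * k * star κ := by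
    rw [mul_sub, sub_mul, mul_smul_comm, mul_one, smul_mul_assoc]
  rw [e1, e2, star_star]
  module

/-- smallness of a perturbation -/
theorem exists_small {m k : D} (hk : star k = k) {δ₀ : ℚ} (h0 : 0 < δ₀) :
    ∃ δ : ℚ, 0 < δ ∧ ∀ κ : D, Up δ (star κ) →
      δ₀ • (1 : D) - (κ * m + star m * star κ + κ * k * star κ) ∈ sos D ∧
      δ₀ • (1 : D) + (κ * m + star m * star κ + κ * k * star κ) ∈ sos D := by
  obtain ⟨M, hM, hm⟩ := exists_up m
  obtain ⟨q1, hq1, h1⟩ := exists_bdd hk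
  obtain ⟨q2, hq2, h2⟩ := exists_bdd (k := -k) (by rw [star_neg, hk])
  obtain ⟨q, hq⟩ : ∃ q, q = max q1 q2 := ⟨_, rfl⟩
  have hqpos : 0 < q := by rw [hq]; exact lt_max_of_lt_left hq1
  have up1 : ∀ {r : ℚ} {x : D}, r ≤ q → r • (1 : D) - x ∈ sos D → q • (1 : D) - x ∈ sos D := by
    intro r x hr hx
    have := (sos D).add_mem hx (sos_smul (sos_one (D := D)) (sub_nonneg.mpr hr))
    convert this using 1
    module
  have h1' := up1 (by rw [hq]; exact le_max_left _ _) h1
  have h2' := up1 (by rw [hq]; exact le_max_right _ _) h2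
  obtain ⟨τ, hτ⟩ : ∃ τ, τ = δ₀ / (2 * M) := ⟨_, rfl⟩
  have hτ0 : 0 < τ := by rw [hτ]; positivity
  obtain ⟨δ, hδ⟩ : ∃ δ, δ = δ₀ / (2 * (τ⁻¹ + q)) := ⟨_, rfl⟩
  have hδ0 : 0 < δ := by rw [hδ]; positivity
  have hle : τ * M + (τ⁻¹ + q) * δ ≤ δ₀ := by
    have e1 : τ * M = δ₀ / 2 := by rw [hτ]; field_simp
    have hne : τ⁻¹ + q ≠ 0 := by positivity
    have e2 : (τ⁻¹ + q) * δ = δ₀ / 2 := by rw [hδ]; field_simp
    rw [e1, e2]; linarith
  refine ⟨δ, hδ0, fun κ hκ => ⟨small_side hm h1' hτ0 hqpos.le hle hκ, ?_⟩⟩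
  have hm' : Up M (-m) := by
    unfold Up at hm ⊢
    rwa [star_neg, neg_mul_neg]
  have := small_side hm' h2' hτ0 hqpos.le hle hκ
  convert this using 1
  rw [star_neg]
  simp only [mul_neg, neg_mul]
  abel

end small

variable {V : Type} [AddCommGroup V] [Module D V]

namespace AForm

variable (H : AForm D V)

/-- Orthogonally to any two vectors there is a nonzero vector, and the set of nonzero values of
the form is stable under small symmetric perturbations. -/
structure OpenV : Prop where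
  nz : ∀ x y : V, ∃ w, w ≠ 0 ∧ H.h w x = 0 ∧ H.h w y = 0
  opn : ∀ x y w : V, w ≠ 0 → H.h w x = 0 → H.h w y = 0 → ∃ δ : ℚ, 0 < δ ∧
    ∀ s : D, star s = s → δ • (1 : D) - s ∈ sos D → δ • (1 : D) + s ∈ sos D →
      ∃ v, H.h v x = 0 ∧ H.h v y = 0 ∧ H.h v v = H.h w w + s

/-- A symmetric transitive relation invariant under isometries. -/
structure InvRel (R : V → V → Prop) : Prop where
  symm : ∀ {x y}, R x y → R y x
  trans : ∀ {x y z}, R x y → R y z → R x z
  inv : ∀ {x y} {g : V ≃ₗ[D] V}, g ∈ H.isom → R x y → R (g x) (g y)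

variable {H}

theorem InvRel.left {R : V → V → Prop} (hR : H.InvRel R) {x y : V} (h : R x y) : R x x :=
  hR.trans h (hR.symm h)

variable [FormPos D] [FiniteDimensional ℚ D]

/-- Local moves. -/
theorem local_move (hO : H.OpenV) {R : V → V → Prop} (hR : H.InvRel R) {e : D}
    {x y z : V} (hx : H.h x x = e) (hy : H.h y y = e) (hz : H.h z z = e)
    (hxy : R x y) (hxz : R x z) (hind : ∀ c : D, x ≠ c • y)
    (hzout : ∀ a b : D, z ≠ a • x + b • y) :
    ∃ δ : ℚ, 0 < δ ∧ ∀ z', H.h z' z' = e → Up δ (star (H.h z' x - H.h z x)) → R x z' := by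
  have hx0 : x ≠ 0 := fun h => hind 0 (by rw [h, zero_smul])
  have he0 : e ≠ 0 := hx ▸ H.self_ne_zero hx0
  have hes : star e = e := by rw [← hx]; exact H.star_h x x
  -- the component of `x` orthogonal to `y`
  obtain ⟨c, hc⟩ : ∃ c, c = H.h x y * e⁻¹ := ⟨_, rfl⟩
  obtain ⟨d, hd⟩ : ∃ d, d = x - c • y := ⟨_, rfl⟩
  have hd0 : d ≠ 0 := by rw [hd]; exact sub_ne_zero.mpr (hind _)
  have hdy : H.h d y = 0 := by
    rw [hd, H.sub_left, H.smul_left, hy, hc, inv_mul_cancel_right₀ he0, sub_self]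
  have hyd : H.h y d = 0 := H.orth_symm hdy
  have hxd : x = d + c • y := by rw [hd]; abel
  obtain ⟨k, hk⟩ : ∃ k, k = H.h d d := ⟨_, rfl⟩
  have hk0 : k ≠ 0 := by rw [hk]; exact H.self_ne_zero hd0
  have hks : star k = k := by rw [hk]; exact H.star_h d d
  have hkis : star k⁻¹ = k⁻¹ := by rw [star_inv₀, hks]
  have hdx : H.h d x = k := by
    rw [hxd, H.add_right, H.smul_right, hdy, zero_mul, add_zero, hk]
  -- the projection of `z`
  obtain ⟨a, ha⟩ : ∃ a, a = H.h z y * e⁻¹ := ⟨_, rfl⟩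
  obtain ⟨b, hb⟩ : ∃ b, b = H.h z d * k⁻¹ := ⟨_, rfl⟩
  obtain ⟨p, hp⟩ : ∃ p, p = a • y + b • d := ⟨_, rfl⟩
  obtain ⟨w, hw⟩ : ∃ w, w = z - p := ⟨_, rfl⟩
  have hzw : z = p + w := by rw [hw]; abel
  have hwy : H.h w y = 0 := by
    rw [hw, hp, H.sub_left, H.add_left, H.smul_left, H.smul_left, hdy, hy, ha,
      inv_mul_cancel_right₀ he0, mul_zero, add_zero, sub_self]
  have hwd : H.h w d = 0 := by
    rw [hw, hp, H.sub_left, H.add_left, H.smul_left, H.smul_left, hyd, ← hk, hb,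
      inv_mul_cancel_right₀ hk0, mul_zero, zero_add, sub_self]
  have hwx : H.h w x = 0 := by
    rw [hxd, H.add_right, H.smul_right, hwd, hwy, zero_mul, add_zero]
  have hw0 : w ≠ 0 := by
    rintro h0
    apply hzout b (a - b * c)
    rw [hzw, h0, add_zero, hp, hd, smul_sub, smul_smul, sub_smul]
    abel
  obtain ⟨δ₀, hδ₀, hop⟩ := hO.opn x y w hw0 hwx hwy
  obtain ⟨δ, hδ, hsm⟩ := exists_small (m := k⁻¹ * H.h d p) (k := k⁻¹) hkis hδ₀
  refine ⟨δ, hδ, fun z' hz' hκ => ?_⟩
  obtain ⟨κ, hκd⟩ : ∃ κ, κ = H.h z' x - H.h z x := ⟨_, rfl⟩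
  rw [← hκd] at hκ
  obtain ⟨s1, s2⟩ := hsm κ hκ
  obtain ⟨s, hs⟩ : ∃ s, s = κ * (k⁻¹ * H.h d p) + star (k⁻¹ * H.h d p) * star κ +
      κ * k⁻¹ * star κ := ⟨_, rfl⟩
  rw [← hs] at s1 s2
  have hss : star s = s := by
    rw [hs]
    simp only [star_add, star_mul, star_star, hkis, mul_assoc]
    abel
  obtain ⟨w', hw'x, hw'y, hw'n⟩ := hop (-s) (by rw [star_neg, hss]) (by rwa [sub_neg_eq_add])
    (by rwa [← sub_eq_add_neg])
  have hw'd : H.h w' d = 0 := by
    rw [hd, H.sub_right, H.smul_right, hw'x, hw'y, zero_mul, sub_zero]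
  obtain ⟨dd, hdd⟩ : ∃ dd, dd = (κ * k⁻¹) • d := ⟨_, rfl⟩
  obtain ⟨z1, hz1⟩ : ∃ z1, z1 = p + dd + w' := ⟨_, rfl⟩
  have hw'p : H.h w' p = 0 := by
    rw [hp, H.add_right, H.smul_right, H.smul_right, hw'y, hw'd]; simp
  have hpw' : H.h p w' = 0 := H.orth_symm hw'p
  have hw'dd : H.h w' dd = 0 := by
    rw [hdd, H.smul_right, hw'd, zero_mul]
  have hddw' : H.h dd w' = 0 := H.orth_symm hw'dd
  have hwp : H.h w p = 0 := by
    rw [hp, H.add_right, H.smul_right, H.smul_right, hwy, hwd]; simp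
  have hpw : H.h p w = 0 := H.orth_symm hwp
  have hz1y : H.h z1 y = H.h z y := by
    rw [hz1, hzw, H.add_left, H.add_left, H.add_left, hw'y, hwy, hdd, H.smul_left, hdy, mul_zero,
      add_zero]
  have hz1x : H.h z1 x = H.h z' x := by
    have h1 : H.h z x = H.h p x := by rw [hzw, H.add_left, hwx, add_zero]
    have h2 : H.h z' x = κ + H.h z x := by rw [hκd]; abel
    rw [h2, h1, hz1, H.add_left, H.add_left, hw'x, hdd, H.smul_left, hdx,
      inv_mul_cancel_right₀ hk0]
    abel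
  have hz1n : H.h z1 z1 = e := by
    have h1 : H.h z z = H.h p p + H.h w w := by
      rw [hzw, H.add_left, H.add_right, H.add_right, hpw, hwp]; abel
    have h2 : H.h z1 z1 = H.h (p + dd) (p + dd) + H.h w' w' := by
      rw [hz1, H.add_left (p + dd), H.add_right (p + dd), H.add_right w', H.add_left p dd w',
        hpw', hddw', H.add_right w' p dd, hw'p, hw'dd]
      abel
    have h3 : H.h dd p = κ * (k⁻¹ * H.h d p) := by rw [hdd, H.smul_left, mul_assoc]
    have h4 : H.h p dd = star (k⁻¹ * H.h d p) * star κ := by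
      rw [← H.star_h, h3, star_mul]
    have h5 : H.h dd dd = κ * k⁻¹ * star κ := by
      rw [hdd, H.smul_left, H.smul_right, ← hk, star_mul, hkis, mul_assoc κ k⁻¹ (star κ),
        mul_assoc κ k⁻¹, ← mul_assoc k k⁻¹, mul_inv_cancel₀ hk0, one_mul]
    have h6 : H.h (p + dd) (p + dd) = H.h p p + s := by
      rw [H.add_left, H.add_right, H.add_right, h3, h4, h5, hs]
      abel
    rw [h2, h6, hw'n]
    rw [← hz, h1]
    abel
  -- first isometry
  obtain ⟨g1, hg1, hg1y, hg1z⟩ := witt_pair (H := H) (x := y) (y := z) (x' := y) (y' := z1)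
    rfl (by rw [hz, hz1n]) hz1y.symm
  have hyz : R y z := hR.trans (hR.symm hxy) hxz
  have h1 := hR.inv hg1 hyz
  rw [hg1y, hg1z] at h1
  have hxz1 : R x z1 := hR.trans hxy h1
  obtain ⟨g2, hg2, hg2x, hg2z⟩ := witt_pair (H := H) (x := x) (y := z1) (x' := x) (y' := z')
    rfl (by rw [hz1n, hz']) hz1x
  have h2 := hR.inv hg2 hxz1
  rwa [hg2x, hg2z] at h2

end AForm

namespace AForm

theorem qr_inv_apply (H : AForm D V) (y : V) (s : D) (hs : s + star s = H.h y y) (v : V) :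
    (H.qr y s hs)⁻¹ v = v - (H.h v y * (star s)⁻¹) • y := rfl

variable {H : AForm D V} [FormPos D] [FiniteDimensional ℚ D]

/-- A third related vector outside the plane of two given ones. -/
theorem exists_out (hO : H.OpenV) {R : V → V → Prop} (hR : H.InvRel R) {x y : V}
    (hxy : R x y) (he : H.h x x = H.h y y) (hind : ∀ c : D, x ≠ c • y) :
    ∃ z, R x z ∧ H.h z z = H.h y y ∧ ∀ a b : D, z ≠ a • x + b • y := by
  have hx0 : x ≠ 0 := fun h => hind 0 (by rw [h, zero_smul])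
  have hxx := H.self_ne_zero hx0
  have hy0 : y ≠ 0 := fun h => hxx (by rw [he, h, H.zero_left])
  obtain ⟨w, hw0, hwx, hwy⟩ := hO.nz x y
  obtain ⟨c, hc⟩ : ∃ c, c = H.h y x * (H.h x x)⁻¹ := ⟨_, rfl⟩
  obtain ⟨d, hd⟩ : ∃ d, d = y - c • x := ⟨_, rfl⟩
  have hd0 : d ≠ 0 := by
    rw [hd, Ne, sub_eq_zero]
    intro h
    have hc0 : c ≠ 0 := by
      rintro rfl
      rw [zero_smul] at h
      exact hy0 h
    apply hind c⁻¹
    rw [h, smul_smul, inv_mul_cancel₀ hc0, one_smul]
  have hdx : H.h d x = 0 := by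
    rw [hd, H.sub_left, H.smul_left, hc, inv_mul_cancel_right₀ hxx, sub_self]
  have hyd : H.h y d = H.h d d := by
    have h1 : y = d + c • x := by rw [hd]; abel
    nth_rewrite 1 [h1]
    rw [H.add_left, H.smul_left, H.orth_symm hdx, mul_zero, add_zero]
  have hdw : H.h d w = 0 := by
    rw [hd, H.sub_left, H.smul_left, H.orth_symm hwx, H.orth_symm hwy, mul_zero, sub_zero]
  obtain ⟨u, hu⟩ : ∃ u, u = d + w := ⟨_, rfl⟩
  have hxu : H.h x u = 0 := by
    rw [hu, H.add_right, H.orth_symm hdx, H.orth_symm hwx, add_zero]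
  have hyu : H.h y u ≠ 0 := by
    rw [hu, H.add_right, H.orth_symm hwy, add_zero, hyd]
    exact H.self_ne_zero hd0
  have huw : H.h u w = H.h w w := by rw [hu, H.add_left, hdw, zero_add]
  have hu0 : u ≠ 0 := by
    rintro rfl
    exact hyu (H.zero_right y)
  refine ⟨H.refl u y, ?_, H.isom_apply (H.refl_mem u) y y, ?_⟩
  · have := hR.inv (H.refl_mem u) hxy
    rwa [H.refl_apply_orth hxu] at this
  · intro a b hab
    have h1 := congrArg (fun t => H.h t w) hab
    simp only [H.refl_apply, H.sub_left, H.add_left, H.smul_left, H.orth_symm hwx,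
      H.orth_symm hwy, huw, mul_zero, add_zero, zero_sub, neg_eq_zero] at h1
    rcases mul_eq_zero.mp h1 with h2 | h2
    · rcases mul_eq_zero.mp h2 with h3 | h3
      · exact hyu h3
      · exact div_ne_zero (H.self_ne_zero hu0) two_ne_zero (inv_eq_zero.mp h3)
    · exact H.self_ne_zero hw0 h2

/-- Isometries of a line close to the identity preserve the class of a vector. -/
theorem near_move (hO : H.OpenV) {R : V → V → Prop} (hR : H.InvRel R) {x y : V}
    (hxy : R x y) (he : H.h x x = H.h y y) (hind : ∀ c : D, x ≠ c • y) (v : V) :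
    ∃ δ : ℚ, 0 < δ ∧ ∀ a : D, Up δ (star a) → ∀ g ∈ H.isom,
      (∀ u, g u = u - (H.h u v * a) • v) → R x (g x) := by
  obtain ⟨z, hxz, hz, hzout⟩ := exists_out hO hR hxy he hind
  obtain ⟨δ₁, hδ₁, hloc⟩ := local_move hO hR (e := H.h y y) he rfl hz hxy hxz hind hzout
  obtain ⟨N1, hN1, u1⟩ := exists_up (H.h x v)
  obtain ⟨N2, hN2, u2⟩ := exists_up (H.h v z)
  refine ⟨δ₁ / (N1 * N2), by positivity, fun a ha g hg hgu => ?_⟩
  have h1 : R x (g z) := by
    apply hloc (g z) (by rw [H.isom_apply hg, hz])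
    have e1 : H.h (g z) x - H.h z x = -(H.h z v * a * H.h v x) := by
      rw [hgu, H.sub_left, H.smul_left]; abel
    have e2 : star (H.h (g z) x - H.h z x) = -(H.h x v * star a * H.h v z) := by
      rw [e1, star_neg, star_mul, star_mul, H.star_h, H.star_h, mul_assoc]
    have h2 := Up.mul_h (by positivity) (Up.mul_h hN1.le u1 ha) u2
    rw [e2]
    unfold Up at h2 ⊢
    rw [star_neg, neg_mul_neg]
    have e3 : N1 * (δ₁ / (N1 * N2)) * N2 = δ₁ := by field_simp
    rwa [e3] at h2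
  exact hR.trans h1 (hR.symm (hR.inv hg hxz))

end AForm

/-- lower bound for large parameters -/
theorem exists_large [FormPos D] [FiniteDimensional ℚ D] (b : D) {c : D} (hc : c ≠ 0) (Q : ℚ) :
    ∃ T₀ : ℚ, 0 < T₀ ∧ ∀ T : ℚ, T₀ ≤ T →
      star (b + T • c) * (b + T • c) - Q • (1 : D) ∈ sos D := by
  obtain ⟨N, hN, hb⟩ := exists_up b
  obtain ⟨r, hr, hr'⟩ := arch (a := (1 : D)) (star_one _) (sos_star_mul c)
    (mul_ne_zero (star_ne_zero.mpr hc) hc)
  obtain ⟨T₀, hT₀⟩ : ∃ T₀, T₀ = max 1 (2 * r * (N + Q)) := ⟨_, rfl⟩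
  refine ⟨T₀, by rw [hT₀]; exact lt_max_of_lt_left one_pos, fun T hT => ?_⟩
  have hT1 : 1 ≤ T := le_trans (by rw [hT₀]; exact le_max_left _ _) hT
  have hT2 : 2 * r * (N + Q) ≤ T := le_trans (by rw [hT₀]; exact le_max_right _ _) hT
  have h1 := sos_smul (sos_star_mul (T • c + (2 : ℚ) • b)) (q := 1 / 2) (by norm_num)
  have h2 : r • (star c * c) - (1 : D) ∈ sos D := by rwa [Rat.smul_def]
  have h3 := sos_smul h2 (q := T ^ 2 / (2 * r)) (by positivity)
  have h4 : (T ^ 2 / (2 * r) - N - Q) • (1 : D) ∈ sos D := by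
    apply sos_smul sos_one
    have h5 : N + Q ≤ T ^ 2 / (2 * r) := by
      rw [le_div_iff₀ (by positivity)]
      have : (N + Q) * (2 * r) = 2 * r * (N + Q) := by ring
      rw [this]
      nlinarith
    linarith
  have h6 := (sos D).add_mem ((sos D).add_mem ((sos D).add_mem h1 h3) hb) h4
  convert h6 using 1
  have e1 : (T ^ 2 / (2 * r)) • (r • (star c * c) - (1 : D)) =
      (T ^ 2 / 2) • (star c * c) - (T ^ 2 / (2 * r)) • (1 : D) := by
    rw [smul_sub, smul_smul]
    congr 2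
    field_simp
  rw [e1]
  simp only [star_add, star_smul_rat, add_mul, mul_add, smul_mul_assoc, mul_smul_comm, smul_add,
    smul_smul]
  module

namespace AForm

variable {H : AForm D V} [FormPos D] [FiniteDimensional ℚ D]

/-- The isometries of a positive line preserve the class of every vector. -/
theorem line_move (hO : H.OpenV) {θ : D} (hθ : star θ = -θ) (hθ0 : θ ≠ 0)
    (hθc : ∀ x, x * θ = θ * x) {R : V → V → Prop} (hR : H.InvRel R) {x y : V}
    (hxy : R x y) (he : H.h x x = H.h y y) (hind : ∀ c : D, x ≠ c • y) {v : V}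
    (hv : H.h v v ∈ sos D) (s : D) (hs : s + star s = H.h v v) : R x (H.qr v s hs x) := by
  by_cases hv0 : v = 0
  · have : H.qr v s hs x = x := by
      rw [qr_apply, hv0, smul_zero, sub_zero]
    rw [this]
    exact hR.left hxy
  obtain ⟨n, hn⟩ : ∃ n, n = H.h v v := ⟨_, rfl⟩
  have hn0 : n ≠ 0 := by rw [hn]; exact H.self_ne_zero hv0
  have hns : star n = n := by rw [hn]; exact H.star_h v v
  obtain ⟨κ, hκ⟩ : ∃ κ, κ = θ * n := ⟨_, rfl⟩
  have hκ0 : κ ≠ 0 := by rw [hκ]; exact mul_ne_zero hθ0 hn0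
  have hκs : star κ = -κ := by
    rw [hκ, star_mul, hns, hθ, mul_neg, hθc]
  have hsT : ∀ T : ℚ, (s + T • κ) + star (s + T • κ) = H.h v v := by
    intro T
    rw [star_add, star_smul_rat, hκs, ← hs]
    module
  obtain ⟨δ, hδ, hnear⟩ := near_move hO hR hxy he hind v
  -- uniform lower bound
  have hacc : Acc s := ⟨by rw [hs]; exact hv, by rw [hs, ← hn]; exact hn0⟩
  obtain ⟨m, hm, hlo⟩ := exists_lo hacc
  have hloT : ∀ T : ℚ, Lo m (s + T • κ) := by
    intro T
    unfold Lo at hlo ⊢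
    rw [hsT T, ← hs]
    exact hlo
  have hneT : ∀ T : ℚ, s + T • κ ≠ 0 := fun T => (Lo.acc hm (hloT T)).ne
  obtain ⟨B, hB⟩ : ∃ B, B = (m ^ 2 / 4)⁻¹ := ⟨_, rfl⟩
  have hB0 : 0 < B := by rw [hB]; positivity
  have hinvT : ∀ T : ℚ, Up B (s + T • κ)⁻¹ := by
    intro T
    rw [hB]
    exact inv_bound (hneT T) (by positivity) (Lo.sq' hm.le (hloT T))
  have hinvT' : ∀ T : ℚ, Up B (star (s + T • κ))⁻¹ := by
    intro T
    rw [hB]
    exact inv_bound (star_ne_zero.mpr (hneT T)) (by positivity)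
      (Lo.sq' hm.le (Lo.star' (hloT T)))
  obtain ⟨K, hK, uK⟩ := exists_up κ
  -- the step
  obtain ⟨C, hC⟩ : ∃ C, C = B * K * B := ⟨_, rfl⟩
  have hC0 : 0 < C := by rw [hC]; positivity
  have hstep : ∀ T η : ℚ, η ^ 2 * C ≤ δ →
      R x (H.qr v (s + (T + η) • κ) (hsT _) x) → R x (H.qr v (s + T • κ) (hsT _) x) := by
    intro T η hη hP
    have hg : (H.qr v (s + T • κ) (hsT T))⁻¹ * H.qr v (s + (T + η) • κ) (hsT (T + η)) ∈ H.isom :=
      mul_mem (inv_mem (H.qr_mem _ _ _)) (H.qr_mem _ _ _)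
    have h1 := hnear ((s + (T + η) • κ)⁻¹ * (η • κ) * (star (s + T • κ))⁻¹) ?_ _ hg ?_
    · have h2 := hR.inv (H.qr_mem v (s + T • κ) (hsT T)) h1
      rw [← LinearEquiv.mul_apply, mul_inv_cancel_left] at h2
      exact hR.trans hP (hR.symm h2)
    · have h3 := Up.mul_h (by positivity) (Up.mul_h hB0.le (hinvT T) uK) (hinvT' (T + η))
      have e1 : star ((s + (T + η) • κ)⁻¹ * (η • κ) * (star (s + T • κ))⁻¹) =
          (-η) • ((s + T • κ)⁻¹ * κ * (star (s + (T + η) • κ))⁻¹) := by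
        rw [star_mul, star_mul, star_inv₀, star_inv₀, star_star, star_smul_rat, hκs]
        simp only [smul_neg, neg_smul, mul_neg, neg_mul, smul_mul_assoc, mul_smul_comm, mul_assoc]
      rw [e1]
      have h4 := Up.smul' h3 (-η)
      refine h4.mono ?_
      rw [neg_sq, ← hC]
      exact hη
    · intro u
      rw [LinearEquiv.mul_apply, qr_inv_apply, qr_apply, H.sub_left, H.smul_left, ← hn]
      obtain ⟨p, hp⟩ : ∃ p, p = s + T • κ := ⟨_, rfl⟩
      obtain ⟨p', hp'⟩ : ∃ p', p' = s + (T + η) • κ := ⟨_, rfl⟩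
      have hpp : p + star p = n := by rw [hp, hsT T, hn]
      have e1 : η • κ = p' - p := by rw [hp, hp']; module
      have hp0 : p ≠ 0 := by rw [hp]; exact hneT T
      have hp'0 : p' ≠ 0 := by rw [hp']; exact hneT (T + η)
      have hps0 : star p ≠ 0 := star_ne_zero.mpr hp0
      rw [← hp, ← hp', e1]
      rw [sub_sub, ← add_smul]
      congr 2
      have e2 : p = n - star p := by rw [← hpp]; abel
      have e3 : p'⁻¹ * (p' - p) * (star p)⁻¹ = (star p)⁻¹ - p'⁻¹ * n * (star p)⁻¹ + p'⁻¹ := by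
        nth_rewrite 1 [e2]
        rw [mul_sub, mul_sub, inv_mul_cancel₀ hp'0, sub_mul, sub_mul, one_mul,
          mul_assoc p'⁻¹ (star p), mul_inv_cancel₀ hps0, mul_one]
        abel
      rw [e3]
      simp only [mul_add, mul_sub, sub_mul, ← mul_assoc]
      abel
  -- large parameters
  obtain ⟨T₀, hT₀, hlarge⟩ := exists_large (star s) (c := -κ) (neg_ne_zero.mpr hκ0) δ⁻¹
  have hbig : ∀ T : ℚ, T₀ ≤ T → R x (H.qr v (s + T • κ) (hsT _) x) := by
    intro T hT
    refine hnear (s + T • κ)⁻¹ ?_ _ (H.qr_mem _ _ _) (fun u => H.qr_apply _ _ _ _)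
    have h1 := hlarge T hT
    have e1 : star s + T • (-κ) = star (s + T • κ) := by
      rw [star_add, star_smul_rat, hκs]
    rw [e1] at h1
    have h2 := inv_bound (star_ne_zero.mpr (hneT T)) (inv_pos.mpr hδ) h1
    rwa [inv_inv, ← star_inv₀] at h2
  -- the path
  obtain ⟨η, hη0, hη⟩ : ∃ η : ℚ, 0 < η ∧ η ^ 2 * C ≤ δ := by
    refine ⟨min 1 (δ / C), lt_min one_pos (by positivity), ?_⟩
    have h1 : min 1 (δ / C) ≤ 1 := min_le_left _ _
    have h2 : min 1 (δ / C) ≤ δ / C := min_le_right _ _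
    have h0 : 0 < min 1 (δ / C) := lt_min one_pos (by positivity)
    rw [le_div_iff₀ hC0] at h2
    nlinarith
  obtain ⟨k, hk⟩ := exists_nat_gt (T₀ / η)
  have hkη : T₀ ≤ (k : ℚ) * η := by
    rw [div_lt_iff₀ hη0] at hk
    exact hk.le
  have key : ∀ j : ℕ, R x (H.qr v (s + ((j : ℚ) * η) • κ) (hsT _) x) →
      R x (H.qr v (s + ((0 : ℚ)) • κ) (hsT _) x) := by
    intro j
    induction j with
    | zero =>
      intro h
      simpa using h
    | succ j ih =>
      intro h
      apply ih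
      apply hstep _ η hη
      convert h using 5
      push_cast; ring
  have := key k (hbig _ hkη)
  simpa using this

/-- Generation gives the whole isometry group. -/
theorem InvRel.total (hO : H.OpenV) (hgen : H.isom ≤ H.posQrGp) {θ : D} (hθ : star θ = -θ)
    (hθ0 : θ ≠ 0) (hθc : ∀ x, x * θ = θ * x) {R : V → V → Prop} (hR : H.InvRel R) {x y : V}
    (hxy : R x y) (he : H.h x x = H.h y y) (hind : ∀ c : D, x ≠ c • y) {x' y' : V}
    (hx' : H.h x' x' = H.h x x) (hy' : H.h y' y' = H.h x x) : R x' y' := by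
  have hall : ∀ g ∈ H.isom, R x (g x) := by
    intro g hg
    have hg' := hgen hg
    clear hg
    induction hg' using Subgroup.closure_induction with
    | mem g hg =>
      obtain ⟨v, s, hs, hv, rfl⟩ := hg
      exact line_move hO hθ hθ0 hθc hR hxy he hind hv s hs
    | one => exact hR.left hxy
    | mul a b ha hb iha ihb =>
      have := hR.inv (H.posQrGp_le ha) ihb
      exact hR.trans iha this
    | inv a ha iha =>
      have h1 := hR.inv (inv_mem (H.posQrGp_le ha)) iha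
      rw [← LinearEquiv.mul_apply, inv_mul_cancel] at h1
      exact hR.symm h1
  obtain ⟨g, hg, hgx, -⟩ := witt_one (H := H) (x := x) (x' := x') hx'.symm
  obtain ⟨g', hg', hgx', -⟩ := witt_one (H := H) (x := x) (x' := y') hy'.symm
  have h1 := hall g hg
  have h2 := hall g' hg'
  rw [hgx] at h1
  rw [hgx'] at h2
  exact hR.trans (hR.symm h1) h2

end AForm

end Vale.Agent.P011S
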