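import Vale.Agent.P011.H402.PartI
import Vale.Agent.P011.H402.Defs

/-!
The commutator subgroup of the unitary group is transitive on pairs, and transfer of the new
Part I to matrix groups.
-/

set_option linter.unusedSectionVars false
set_option linter.unusedSimpArgs false

open Matrix Module
open scoped commutatorElement

namespace Vale.Agent.P011S

variable {D : Type} [DivisionRing D] [StarRing D] [CharZero D] [FiniteDimensional ℚ D]

variable (D) in
/-- the space of symmetric elements -/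
def symSub : Submodule ℚ D where
  carrier := {s | star s = s}
  add_mem' := by
    intro a b ha hb
    change star (a + b) = a + b
    rw [star_add, show star a = a from ha, show star b = b from hb]
  zero_mem' := star_zero D
  smul_mem' := by
    intro q a ha
    change star (q • a) = q • a
    rw [star_smul_rat, show star a = a from ha]

/-- the equation `Z s + s Z* = e` in symmetric elements -/
theorem exists_sylvester {N : ℕ} (ρ : RealRep D N) {Z : D} (hZ : (ρ.toFun Z).trace ≠ 0) {e : D}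
    (he : star e = e) : ∃ s : D, star s = s ∧ Z * s + s * star Z = e := by
  let L : symSub D →ₗ[ℚ] symSub D :=
    { toFun := fun s => ⟨Z * (s : D) + (s : D) * star Z, by
        change star (Z * (s : D) + (s : D) * star Z) = _
        have hs : star (s : D) = (s : D) := s.2
        rw [star_add, star_mul, star_mul, star_star, hs, add_comm]⟩
      map_add' := fun a b => by
        ext
        simp only [Submodule.coe_add, mul_add, add_mul]
        abel
      map_smul' := fun q a => by
        ext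
        simp only [SetLike.val_smul, RingHom.id_apply, mul_smul_comm, smul_mul_assoc, smul_add] }
  have hinj : Function.Injective L := by
    rw [← LinearMap.ker_eq_bot, LinearMap.ker_eq_bot']
    rintro ⟨s, hs⟩ h0
    have h1 : Z * s + s * star Z = 0 := congrArg Subtype.val h0
    by_contra hne
    have hs0 : s ≠ 0 := fun h => hne (by ext; exact h)
    apply hZ
    have h2 : Z = -(s * star Z * s⁻¹) := by
      have h3 : Z * s = -(s * star Z) := eq_neg_of_add_eq_zero_left h1
      rw [← neg_mul, ← h3, mul_inv_cancel_right₀ hs0]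
    have h4 : (ρ.toFun Z).trace = -(ρ.toFun Z).trace := by
      conv_lhs => rw [h2]
      rw [map_neg, map_mul, map_mul, Matrix.trace_neg, Matrix.mul_assoc, Matrix.trace_mul_comm,
        Matrix.mul_assoc, ← map_mul, inv_mul_cancel₀ hs0, map_one, Matrix.mul_one, ρ.star',
        Matrix.trace_transpose]
    linarith
  have hsurj : Function.Surjective L := LinearMap.injective_iff_surjective.mp hinj
  obtain ⟨⟨s, hs⟩, h⟩ := hsurj ⟨e, he⟩
  exact ⟨s, hs, congrArg Subtype.val h⟩

/-- multiplication by a symmetric element makes the trace nonzero, unless the element is skew -/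
theorem exists_trace_ne {N : ℕ} (ρ : RealRep D N) {Z : D} (hZ : star Z ≠ -Z) :
    ∃ s : D, star s = s ∧ s ≠ 0 ∧ (ρ.toFun (Z * s)).trace ≠ 0 := by
  obtain ⟨A, hA⟩ : ∃ A, A = Z + star Z := ⟨_, rfl⟩
  have hA0 : A ≠ 0 := by
    rw [hA]
    intro h
    exact hZ (eq_neg_of_add_eq_zero_right h)
  have hAs : star A = A := by rw [hA, star_add, star_star, add_comm]
  refine ⟨A, hAs, hA0, fun h => ?_⟩
  have h1 : (ρ.toFun (star Z * A)).trace = (ρ.toFun (Z * A)).trace := by
    have h2 : star Z * A = star (A * Z) := by rw [star_mul, hAs]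
    rw [h2, ρ.star', Matrix.trace_transpose, map_mul, map_mul, Matrix.trace_mul_comm]
  have h3 : (ρ.toFun (A * A)).trace = 0 := by
    nth_rewrite 1 [hA]
    rw [add_mul, map_add, Matrix.trace_add, h1, h, add_zero]
  have h4 : PosQ (ρ.toFun (A * A)) := by
    apply ρ.pos'
    · have := sos_mul_star A
      rwa [hAs] at this
    · exact mul_ne_zero hA0 hA0
  have hN : ∃ i : Fin N, True := by
    by_contra hcon
    push Not at hcon
    have h5 : ρ.toFun 1 = ρ.toFun 0 := by ext i j; exact (hcon i).elim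
    have h6 := ρ.pos (-1) (by simp) (by
      intro y hy
      exfalso
      apply hy
      ext i
      exact (hcon i).elim)
    have h7 := ρ.pos (0 : D) (by simp) (by
      intro y hy
      exfalso
      apply hy
      ext i
      exact (hcon i).elim)
    exact h7.2 rfl
  have h5 : 0 < (ρ.toFun (A * A)).trace := by
    obtain ⟨i₀, -⟩ := hN
    rw [Matrix.trace]
    apply Finset.sum_pos
    · intro i _
      have := h4 (Pi.single i 1) (by
        intro h0
        have := congrFun h0 i
        simp at this)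
      simpa [Matrix.diag] using this
    · exact ⟨i₀, Finset.mem_univ _⟩
  linarith

variable [FormPos D]
variable {μ : Type} [Fintype μ] [DecidableEq μ]

/-- the one by one matrix of a nonzero element, as a unit -/
def munit {z : D} (hz : z ≠ 0) : (Matrix Unit Unit D)ˣ where
  val := Matrix.of fun _ _ => z
  inv := Matrix.of fun _ _ => z⁻¹
  val_inv := by
    ext i j
    simp only [Matrix.mul_apply, Finset.univ_unique, PUnit.default_eq_unit, of_apply,
      Finset.sum_const, Finset.card_singleton, one_smul, mul_inv_cancel₀ hz, Matrix.one_apply_eq]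
  inv_val := by
    ext i j
    simp only [Matrix.mul_apply, Finset.univ_unique, PUnit.default_eq_unit, of_apply,
      Finset.sum_const, Finset.card_singleton, one_smul, inv_mul_cancel₀ hz, Matrix.one_apply_eq]

theorem munit_gram {H : Matrix μ μ D} {v : Matrix μ Unit D} {z : D} (hz : z ≠ 0)
    (h : z + star z = (vᴴ * H * v) () ()) :
    vᴴ * H * v = (munit hz : Matrix Unit Unit D) + (munit hz : Matrix Unit Unit D)ᴴ := by
  ext i j
  rw [show i = () from rfl, show j = () from rfl, ← h]
  simp [munit]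

theorem qr_fix {H : Matrix μ μ D} (hH : Hᴴ = H) (v : Matrix μ Unit D)
    (Z : (Matrix Unit Unit D)ˣ) (h : vᴴ * H * v = (Z : Matrix Unit Unit D) +
      (Z : Matrix Unit Unit D)ᴴ) {x : Matrix μ Unit D} (hx : vᴴ * H * x = 0) :
    mat (qr H hH v Z h) * x = x := by
  rw [mat_qr]
  unfold tm
  rw [Matrix.sub_mul, Matrix.one_mul, Matrix.mul_assoc, Matrix.mul_assoc, Matrix.mul_assoc,
    ← Matrix.mul_assoc vᴴ, hx, Matrix.mul_zero, Matrix.mul_zero, sub_zero]

/-- the class of a quasi-reflection -/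
theorem cls_qr_fd {H : Matrix μ μ D} (hH : An H) (v : Matrix μ Unit D)
    {z : D} (hz : z ≠ 0) (h : z + star z = (vᴴ * H * v) () ()) :
    cls (qr H hH.herm v (munit hz) (munit_gram hz h)) = fd hH z := by
  let x : Matrix μ (Fin 1) D := v.submatrix id (fun _ => ())
  have hx : xᴴ * H * x = dg z + (dg z)ᴴ := by
    rw [dg_star, dg_add]
    ext i j
    have : (xᴴ * H * x) i j = (vᴴ * H * v) () () := by
      simp only [conjTranspose_submatrix, Matrix.mul_apply, submatrix_apply, id_eq,
        conjTranspose_apply, x]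
    rw [this, ← h, Subsingleton.elim j i]
    simp only [diagonal_apply_eq]
  have z1 : dg z * dg z⁻¹ = 1 := by rw [dg_mul, mul_inv_cancel₀ hz, dg_one]
  have z2 : dg z⁻¹ * dg z = 1 := by rw [dg_mul, inv_mul_cancel₀ hz, dg_one]
  have e1 : cls (qr H hH.herm v (munit hz) (munit_gram hz h)) = fz hH (dg z) := by
    rw [fz_eq hH z1 z2 x hx]
    rfl
  rw [e1]
  rfl

/-- every class is the class of an isometry supported on a given line -/
theorem exists_fix {H : Matrix μ μ D} (hH : An H) {N : ℕ} (ρ : RealRep D N)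
    (G : GlobF hH) {θ : D} (hθ : ∀ x, x * θ = θ * x) (hθs : star θ = -θ) (hθ0 : θ ≠ 0)
    {v : Matrix μ Unit D} (hv : v ≠ 0) (g : UH H) :
    ∃ s : UH H, cls s = cls g ∧ ∀ x : Matrix μ Unit D, vᴴ * H * x = 0 → mat s * x = x := by
  obtain ⟨e, he⟩ : ∃ e, e = (vᴴ * H * v) () () := ⟨_, rfl⟩
  have hes : star e = e := by
    have h1 : (vᴴ * H * v)ᴴ = vᴴ * H * v := by
      rw [Matrix.conjTranspose_mul, Matrix.conjTranspose_mul, Matrix.conjTranspose_conjTranspose,
        hH.herm, Matrix.mul_assoc]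
    have h2 := congrFun (congrFun h1 ()) ()
    rw [Matrix.conjTranspose_apply] at h2
    rw [he]
    exact h2
  have he0 : e ≠ 0 := by
    intro h0
    apply hv
    apply hH.aniso
    ext i j
    rw [show i = () from rfl, show j = () from rfl, ← he, h0]
    rfl
  have hrp : Rp H e := by
    refine ⟨v.submatrix id (fun _ => ()), ?_⟩
    ext i j
    have : ((v.submatrix id (fun _ : Fin 1 => ()))ᴴ * H *
        v.submatrix id (fun _ : Fin 1 => ())) i j = (vᴴ * H * v) () () := by
      simp only [conjTranspose_submatrix, Matrix.mul_apply, submatrix_apply, id_eq,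
        conjTranspose_apply]
    rw [this, ← he, Subsingleton.elim j i]
    simp only [diagonal_apply_eq]
  -- the reflection
  have he2 : e / 2 + star (e / 2) = e := by
    have h1 : star (e / 2) = e / 2 := by
      have hc : Commute (2 : D)⁻¹ e := (Nat.cast_commute 2 e).inv_left₀
      rw [div_eq_mul_inv, star_mul, hes, star_inv₀, star_ofNat]
      exact hc.eq
    rw [h1, add_halves]
  have he20 : e / 2 ≠ 0 := div_ne_zero he0 two_ne_zero
  have hrefl : fd hH (e / 2) = fd hH 1 := by
    have h1 := G.cls' (e / 2) he20 (by rw [he2]; exact he0) (by rw [he2]; exact hrp)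
    have h2 : star (e / 2) = e / 2 := by
      have hc : Commute (2 : D)⁻¹ e := (Nat.cast_commute 2 e).inv_left₀
      rw [div_eq_mul_inv, star_mul, hes, star_inv₀, star_ofNat]
      exact hc.eq
    rw [h1, G.sym _ he20 h2, mul_one]
  obtain ⟨r, hr⟩ : ∃ r, r = qr H hH.herm v (munit he20)
      (munit_gram he20 (by rw [he2, he])) := ⟨_, rfl⟩
  have hrc : cls r = fd hH 1 := by rw [hr, cls_qr_fd hH v he20 (by rw [he2, he]), hrefl]
  have hrf : ∀ x : Matrix μ Unit D, vᴴ * H * x = 0 → mat r⁻¹ * x = x := by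
    intro x hx
    have h1 : mat r * x = x := by rw [hr]; exact qr_fix hH.herm v _ _ hx
    calc mat r⁻¹ * x = mat r⁻¹ * (mat r * x) := by rw [h1]
      _ = x := by rw [← Matrix.mul_assoc, mat_inv_mul, Matrix.one_mul]
  have hri : cls r⁻¹ = (fd hH 1)⁻¹ := by
    have h1 : cls r⁻¹ = (cls r)⁻¹ := map_inv Abelianization.of r
    rw [h1, hrc]
  obtain ⟨Z, hZ0, hZ⟩ := exists_F_eq hH G hθ hθs hθ0 g
  by_cases hsk : star Z = -Z
  · refine ⟨r⁻¹, ?_, hrf⟩
    have h1 : G.F (θ * Z) = 1 := by
      apply G.sym _ (mul_ne_zero hθ0 hZ0)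
      rw [star_mul, hsk, hθs, neg_mul_neg, hθ]
    rw [G.mul θ Z hθ0 hZ0, G.skew θ hθ0 hθ hθs] at h1
    rw [hri, hZ]
    exact (eq_inv_of_mul_eq_one_right h1).symm
  · obtain ⟨s₁, hs₁, hs₁0, htr⟩ := exists_trace_ne ρ hsk
    obtain ⟨s₂, hs₂, hsyl⟩ := exists_sylvester ρ htr hes
    obtain ⟨z, hz⟩ : ∃ z, z = Z * s₁ * s₂ := ⟨_, rfl⟩
    have hzz : z + star z = e := by
      rw [← hsyl, hz, star_mul (Z * s₁), hs₂]
    have hs₂0 : s₂ ≠ 0 := by
      rintro rfl
      rw [mul_zero, zero_mul, add_zero] at hsyl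
      exact he0 hsyl.symm
    have hz0 : z ≠ 0 := by rw [hz]; exact mul_ne_zero (mul_ne_zero hZ0 hs₁0) hs₂0
    have hFz : G.F z = G.F Z := by
      rw [hz, G.mul _ _ (mul_ne_zero hZ0 hs₁0) hs₂0, G.mul _ _ hZ0 hs₁0, G.sym _ hs₁0 hs₁,
        G.sym _ hs₂0 hs₂, mul_one, mul_one]
    have hfz := G.cls' z hz0 (by rw [hzz]; exact he0) (by rw [hzz]; exact hrp)
    refine ⟨qr H hH.herm v (munit hz0) (munit_gram hz0 (by rw [hzz, he])) * r⁻¹, ?_, ?_⟩
    · rw [cls_mul, cls_qr_fd hH v hz0 (by rw [hzz, he]), hri, hfz, hFz, hZ, mul_comm (fd hH 1),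
        mul_inv_cancel_right]
    · intro x hx
      rw [mat_mul, Matrix.mul_assoc, hrf x hx]
      exact qr_fix hH.herm v _ _ hx

/-- the commutator subgroup has the orbits of the whole group on pairs -/
theorem exists_comm_pair {H : Matrix μ μ D} (hH : An H) {N : ℕ} (ρ : RealRep D N)
    (G : GlobF hH) {θ : D} (hθ : ∀ x, x * θ = θ * x) (hθs : star θ = -θ) (hθ0 : θ ≠ 0)
    (hnz : ∀ x y : Matrix μ Unit D, ∃ v : Matrix μ Unit D, v ≠ 0 ∧ vᴴ * H * x = 0 ∧
      vᴴ * H * y = 0) (g : UH H) (x y : Matrix μ Unit D) :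
    ∃ e ∈ commutator (UH H), mat e * x = mat g * x ∧ mat e * y = mat g * y := by
  obtain ⟨v, hv0, hvx, hvy⟩ := hnz x y
  obtain ⟨s, hs, hsf⟩ := exists_fix hH ρ G hθ hθs hθ0 hv0 g
  have hfi : ∀ x : Matrix μ Unit D, vᴴ * H * x = 0 → mat s⁻¹ * x = x := by
    intro x hx
    calc mat s⁻¹ * x = mat s⁻¹ * (mat s * x) := by rw [hsf x hx]
      _ = x := by rw [← Matrix.mul_assoc, mat_inv_mul, Matrix.one_mul]
  refine ⟨g * s⁻¹, ?_, ?_, ?_⟩
  · rw [← cls_eq_one_iff, cls_mul]
    have h1 : cls s⁻¹ = (cls s)⁻¹ := map_inv Abelianization.of s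
    rw [h1, hs, mul_inv_cancel]
  · rw [mat_mul, Matrix.mul_assoc, hfi x hvx]
  · rw [mat_mul, Matrix.mul_assoc, hfi y hvy]

/-- **New Part I** for matrix groups. -/
theorem partI_open {H : Matrix μ μ D} (hH : An H) (hO : (rowForm H hH).OpenV)
    {N : ℕ} (ρ : RealRep D N) (G : GlobF hH)
    (hgen : Subgroup.closure (qrPosSet H hH.herm) = ⊤) {θ : D} (hθ : star θ = -θ) (hθ0 : θ ≠ 0)
    (hθc : ∀ x, x * θ = θ * x) {N : Subgroup (UH H)}
    (hN : ∀ e ∈ commutator (UH H), ∀ g ∈ N, e * g * e⁻¹ ∈ N) {σ : UH H} (hσ : σ ∈ N)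
    {x : Matrix μ Unit D} (hx : ∀ c : Matrix Unit Unit D, mat σ * x ≠ x * c) :
    commutator (UH H) ≤ N := by
  have hN' : AForm.CommNormal (rowForm H hH) (N.map rep) := by
    intro e he g hg
    rw [← map_commutator_rep hH] at he
    obtain ⟨e', he', rfl⟩ := he
    obtain ⟨g', hg', rfl⟩ := hg
    exact ⟨e' * g' * e'⁻¹, hN e' he' g' hg', by simp only [map_mul, map_inv]⟩
  have hNU : N.map rep ≤ (rowForm H hH).isom := by
    rintro _ ⟨g, -, rfl⟩
    exact rep_mem hH g
  have hnz : ∀ x y : Matrix μ Unit D, ∃ v : Matrix μ Unit D, v ≠ 0 ∧ vᴴ * H * x = 0 ∧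
      vᴴ * H * y = 0 := by
    intro x y
    obtain ⟨w, hw0, hwx, hwy⟩ := hO.nz (rv x) (rv y)
    rw [rowForm_h, cv_rv] at hwx hwy
    refine ⟨cv w, ?_, ?_, ?_⟩
    · intro h0
      apply hw0
      apply cv_injective
      rw [h0]
      ext i j
      simp [cv]
    · ext i j; exact hwx
    · ext i j; exact hwy
  have htr : ∀ g ∈ (rowForm H hH).isom, ∀ x y : μ → D,
      ∃ e ∈ ⁅(rowForm H hH).isom, (rowForm H hH).isom⁆, e x = g x ∧ e y = g y := by
    intro g hg x y
    obtain ⟨g', rfl⟩ := rep_surj hH hg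
    obtain ⟨e, he, hex, hey⟩ := exists_comm_pair hH ρ G hθc hθ hθ0 hnz g' (cv x) (cv y)
    refine ⟨rep e, ?_, ?_, ?_⟩
    · rw [← map_commutator_rep hH]
      exact ⟨e, he, rfl⟩
    · apply cv_injective
      rw [cv_rep, cv_rep, hex]
    · apply cv_injective
      rw [cv_rep, cv_rep, hey]
  have h1 := hO.main (isom_le_posQrGp hH hgen) htr hθ hθ0 hθc hN' hNU (σ := rep σ)
    ⟨σ, hσ, rfl⟩ (x := rv x) (by
    intro c hc
    apply hx (Matrix.of fun _ _ => star c)
    have h2 := congrArg cv hc
    rw [cv_rep, cv_smul, cv_rv] at h2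
    exact h2)
  rw [← map_commutator_rep hH] at h1
  exact (Subgroup.map_le_map_iff_of_injective rep_injective).mp h1

end Vale.Agent.P011S
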